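import Vale.Agent.P004N.H880.FE1

/-!
# P004N: functional equation of the twists at a general Atkin-Lehner involution, real coefficients

`fe_pure`: for `QE f b`, `ALw N Q f e` with `N = Q g`, and `D` fundamental with `(Q, D) = 1`,
`g ∣ D`, the sequence `b(n) χ_D(n)` satisfies a functional equation of conductor `Q D²`.
-/

open UpperHalfPlane hiding I
open CongruenceSubgroup
open scoped MatrixGroups ModularForm Manifold Real

namespace P004N.H880

open Complex Finset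
open Vale.Agent.P004H.H871 (RC TS TS_gen Fd kr kr_rc kr_mul kr_zero kr_one kr_pm im_add_div
  ne_zero_of_im sum_units)

variable {N Q g m : ℕ} [NeZero m] {f : ℍ → ℂ} {b : ℕ → ℝ} {e : ℝ} {c : ℤ → ℤ}

/-- **functional equation** of the twist by a real character `c` modulo `m`, `g ∣ m`, `(Q, m) = 1` -/
theorem fe_RCq (hqe : QE f (fun n => (b n : ℂ))) (hAL : ALw N Q f e) (hN : N = Q * g) (hQ : 0 < Q)
    (hc : RC m c) (hQm : m.Coprime Q) (hg : g ∣ m) {y : ℝ} (hy : 0 < y) :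
    fDr b c (1 / (Q * (m : ℝ) ^ 2 * y)) =
      -(e * c (-Q)) * (Q * (m : ℝ) ^ 2) * y ^ 2 * fDr b c y := by
  obtain ⟨G, hG, hG2⟩ := hc.gauss
  have hm : (0 : ℝ) < m := by exact_mod_cast Nat.pos_of_ne_zero (NeZero.ne m)
  have hm0 : (m : ℂ) ≠ 0 := by exact_mod_cast NeZero.ne m
  have hy0 : (y : ℂ) ≠ 0 := by exact_mod_cast hy.ne'
  have hQr : (0 : ℝ) < Q := by exact_mod_cast hQ
  have hQ0 : (Q : ℂ) ≠ 0 := by exact_mod_cast hQ.ne'
  have hz : 0 < ((y : ℂ) * I).im := by simpa using hy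
  have h1 := TS_fe hAL hN hQ hc hQm hg hz
  have e1 : -1 / ((Q : ℂ) * (m : ℂ) ^ 2 * (y * I)) =
      ((1 / (Q * (m : ℝ) ^ 2 * y) : ℝ) : ℂ) * I := by
    push_cast
    have hI := Complex.I_mul_I
    field_simp
    linear_combination -hI
  rw [e1] at h1
  apply Complex.ofReal_injective
  rw [fDr_eq hqe hG hG2 (by positivity), h1]
  push_cast
  rw [fDr_eq hqe hG hG2 hy, mul_pow, Complex.I_sq]
  ring

omit [NeZero m] in
/-- **the twists by fundamental discriminants**, at a general Atkin-Lehner involution -/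
theorem fe_pure (hqe : QE f (fun n => (b n : ℂ))) (hAL : ALw N Q f e) (hN : N = Q * g)
    (hQ : 0 < Q) (he : e = 1 ∨ e = -1) {D : ℤ} (hD : Fd D) (hQD : IsCoprime (Q : ℤ) D)
    (hg : (g : ℤ) ∣ D) :
    FEr (fun k => b k * kr D k) (Q * (D : ℝ) ^ 2 / 4) (-(e * (kr D (-(Q : ℤ)) : ℤ))) := by
  have hm : NeZero D.natAbs := ⟨Int.natAbs_ne_zero.2 hD.ne⟩
  have hc := kr_rc hD
  have hQr : (0 : ℝ) < Q := by exact_mod_cast hQ
  have hDr : (0 : ℝ) < (D : ℝ) ^ 2 := by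
    have : (D : ℝ) ≠ 0 := by exact_mod_cast hD.ne
    positivity
  have hm2 : ((D.natAbs : ℕ) : ℝ) ^ 2 = (D : ℝ) ^ 2 := by
    rw [Nat.cast_natAbs, Int.cast_abs, sq_abs]
  have hQm : D.natAbs.Coprime Q := by
    have h1 := Int.isCoprime_iff_gcd_eq_one.1 hQD
    rw [Int.gcd_comm] at h1
    exact h1
  have hgD : g ∣ D.natAbs := Int.natCast_dvd.1 hg
  have hk : ((kr D (-(Q : ℤ)) : ℤ) : ℝ) = 1 ∨ ((kr D (-(Q : ℤ)) : ℤ) : ℝ) = -1 := by
    rcases kr_pm hD (n := -(Q : ℤ)) hQD.symm.neg_right with h1 | h1 <;> rw [h1] <;> norm_num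
  have hκ : -(e * ((kr D (-(Q : ℤ)) : ℤ) : ℝ)) = 1 ∨ -(e * ((kr D (-(Q : ℤ)) : ℤ) : ℝ)) = -1 := by
    rcases he with h1 | h1 <;> rcases hk with h2 | h2 <;> rw [h1, h2] <;> norm_num
  refine ⟨by positivity, hκ, fun u hu => ?_⟩
  set κ : ℝ := -(e * ((kr D (-(Q : ℤ)) : ℤ) : ℝ)) with hκd
  have hκ2 : κ * κ = 1 := by rcases hκ with h1 | h1 <;> rw [h1] <;> norm_num
  have e0 : ∀ t : ℝ, THr (fun n => b n * kr D n) t = 4 * fDr b (kr D) (t / 2) := by
    intro t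
    unfold THr fDr
    congr 1
    refine tsum_congr fun n => ?_
    congr 2
    ring
  have h1 := fe_RCq hqe hAL hN hQ hc hQm hgD (half_pos hu)
  rw [hm2] at h1
  rw [e0, e0]
  have e2 : 1 / ((Q : ℝ) * (D : ℝ) ^ 2 / 4 * u) / 2 = 1 / (Q * (D : ℝ) ^ 2 * (u / 2)) := by
    field_simp
    norm_num
  rw [e2, h1]
  rw [← hκd]
  have key : ∀ K F v k : ℝ, 0 < K → 0 < v → k * k = 1 →
      4 * F = k / (K / 4 * v ^ 2) * (4 * (k * K * (v / 2) ^ 2 * F)) := by
    intro K F v k hK hv hk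
    have e3 : k / (K / 4 * v ^ 2) * (4 * (k * K * (v / 2) ^ 2 * F)) = (k * k) * (4 * F) := by
      field_simp
      ring
    rw [e3, hk, one_mul]
  exact key _ _ _ _ (by positivity) hu hκ2

end P004N.H880
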