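import Vale.Agent.P004N.H880.Tw
import Vale.Agent.P004N.DefsL

/-!
# P004N, module T2 for newforms with real coefficients: `StFE1`
-/

open UpperHalfPlane hiding I
open CongruenceSubgroup
open scoped MatrixGroups ModularForm Manifold Real

namespace P004N.H880

open Complex Finset
open Vale.Agent.P004H.H871 (RC TS TS_gen Fd kr kr_rc kr_mul kr_zero kr_one kr_pm im_add_div
  ne_zero_of_im sum_units)

section sums

variable {M m : ℕ} [NeZero m] {f : ℍ → ℂ} {b : ℕ → ℝ} {ε : ℝ} {c : ℤ → ℤ}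

lemma ext_hasSum_r (hqe : QE f (fun n => (b n : ℂ))) {z : ℂ} (hz : 0 < z.im) :
    HasSum (fun n : ℕ => (b n : ℂ) * cexp (2 * Real.pi * I * (n * z))) (ext f z) := by
  rw [ext_of hz]
  refine (hqe ⟨z, hz⟩).congr_fun fun n => ?_
  congr 2
  show 2 * (π : ℂ) * I * (n * z) = 2 * π * I * n * z
  ring

/-- the twisted series in terms of the form -/
lemma twist_hasSum_r (hqe : QE f (fun n => (b n : ℂ))) {G : ℂ} (hg : G ≠ 0)
    (hg2 : ∀ k : ℤ, ∑ u : ZMod m, (c u.val : ℂ) * ZMod.stdAddChar (u * (k : ZMod m)) = c k * G)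
    {z : ℂ} (hz : 0 < z.im) :
    HasSum (fun n : ℕ => (b n : ℂ) * c n * cexp (2 * Real.pi * I * (n * z)))
      (G⁻¹ * TS m c (ext f) z) := by
  have hm0 : (m : ℂ) ≠ 0 := by exact_mod_cast NeZero.ne m
  have h1 : ∀ u : ZMod m, HasSum (fun n : ℕ => (c u.val : ℂ) *
      ((b n : ℂ) * cexp (2 * Real.pi * I * (n * (z + ((u.val : ℤ) : ℂ) / m)))))
      ((c u.val : ℂ) * ext f (z + ((u.val : ℤ) : ℂ) / m)) := fun u =>
    (ext_hasSum_r hqe (im_add_div hz _ m)).mul_left _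
  have h2 := (hasSum_sum (fun u (_ : u ∈ (Finset.univ : Finset (ZMod m))) => h1 u)).mul_left G⁻¹
  refine h2.congr_fun fun n => ?_
  have h3 : ∀ u : ZMod m, (ZMod.stdAddChar (u * ((n : ℤ) : ZMod m)) : ℂ) =
      cexp (2 * Real.pi * I * (n * (((u.val : ℤ) : ℂ) / m))) := by
    intro u
    rw [P004.stdAddChar_mul_int]
    congr 1
    push_cast
    ring
  have h4 : ∀ u : ZMod m, (c u.val : ℂ) *
      ((b n : ℂ) * cexp (2 * Real.pi * I * (n * (z + ((u.val : ℤ) : ℂ) / m)))) =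
      ((b n : ℂ) * cexp (2 * Real.pi * I * (n * z))) *
        ((c u.val : ℂ) * ZMod.stdAddChar (u * ((n : ℤ) : ZMod m))) := by
    intro u
    rw [h3 u, mul_add, mul_add, Complex.exp_add]
    ring
  simp_rw [h4, ← Finset.mul_sum]
  rw [hg2]
  field_simp

/-- the twisted theta series on the imaginary axis -/
noncomputable def fDr (b : ℕ → ℝ) (c : ℤ → ℤ) (y : ℝ) : ℝ :=
  ∑' n : ℕ, (b n * c n) * Real.exp (-2 * Real.pi * n * y)

lemma fDr_eq (hqe : QE f (fun n => (b n : ℂ))) {G : ℂ} (hg : G ≠ 0)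
    (hg2 : ∀ k : ℤ, ∑ u : ZMod m, (c u.val : ℂ) * ZMod.stdAddChar (u * (k : ZMod m)) = c k * G)
    {y : ℝ} (hy : 0 < y) : ((fDr b c y : ℝ) : ℂ) = G⁻¹ * TS m c (ext f) (y * I) := by
  have hz : 0 < ((y : ℂ) * I).im := by simpa using hy
  have h1 := twist_hasSum_r hqe hg hg2 hz
  rw [← h1.tsum_eq]
  unfold fDr
  rw [Complex.ofReal_tsum]
  refine tsum_congr fun n => ?_
  push_cast
  congr 2
  have hI := Complex.I_mul_I
  linear_combination (-2 * Real.pi * n * y : ℂ) * hI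

/-- **functional equation** of the twist by a real character `c` modulo `m` prime to the level -/
theorem fe_RCr (hqe : QE f (fun n => (b n : ℂ))) (hAL : ALw M M f ε) (hM : 0 < M)
    (hc : RC m c) (hMm : m.Coprime M) {y : ℝ} (hy : 0 < y) :
    fDr b c (1 / (M * (m : ℝ) ^ 2 * y)) =
      -(ε * c (-M)) * (M * (m : ℝ) ^ 2) * y ^ 2 * fDr b c y := by
  obtain ⟨G, hG, hG2⟩ := hc.gauss
  have hm : (0 : ℝ) < m := by exact_mod_cast Nat.pos_of_ne_zero (NeZero.ne m)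
  have hm0 : (m : ℂ) ≠ 0 := by exact_mod_cast NeZero.ne m
  have hy0 : (y : ℂ) ≠ 0 := by exact_mod_cast hy.ne'
  have hQr : (0 : ℝ) < M := by exact_mod_cast hM
  have hQ0 : (M : ℂ) ≠ 0 := by exact_mod_cast hM.ne'
  have hz : 0 < ((y : ℂ) * I).im := by simpa using hy
  have h1 := TS_fe hAL (mul_one M).symm hM hc hMm (one_dvd m) hz
  have e1 : -1 / ((M : ℂ) * (m : ℂ) ^ 2 * (y * I)) =
      ((1 / (M * (m : ℝ) ^ 2 * y) : ℝ) : ℂ) * I := by
    push_cast
    have hI := Complex.I_mul_I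
    field_simp
    linear_combination -hI
  rw [e1] at h1
  apply Complex.ofReal_injective
  rw [fDr_eq hqe hG hG2 (by positivity), h1]
  push_cast
  rw [fDr_eq hqe hG hG2 hy, mul_pow, Complex.I_sq]
  ring

end sums

/-- **Module T2** -/
theorem pfFE1 : StFE1 := by
  intro M g b ε h D hD hMD
  have hm : NeZero D.natAbs := ⟨Int.natAbs_ne_zero.2 hD.ne⟩
  have hc := kr_rc hD
  have hM := h.pos
  have hMr : (0 : ℝ) < M := by exact_mod_cast hM
  have hDr : (0 : ℝ) < (D : ℝ) ^ 2 := by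
    have : (D : ℝ) ≠ 0 := by exact_mod_cast hD.ne
    positivity
  have hm2 : ((D.natAbs : ℕ) : ℝ) ^ 2 = (D : ℝ) ^ 2 := by
    rw [Nat.cast_natAbs, Int.cast_abs, sq_abs]
  have hQm : D.natAbs.Coprime M := by
    have h1 := Int.isCoprime_iff_gcd_eq_one.1 hMD
    rw [Int.gcd_comm] at h1
    exact h1
  have hk : ((kr D (-(M : ℤ)) : ℤ) : ℝ) = 1 ∨ ((kr D (-(M : ℤ)) : ℤ) : ℝ) = -1 := by
    rcases kr_pm hD (n := -(M : ℤ)) hMD.symm.neg_right with h1 | h1 <;> rw [h1] <;> norm_num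
  have hκ : -(ε * ((kr D (-(M : ℤ)) : ℤ) : ℝ)) = 1 ∨ -(ε * ((kr D (-(M : ℤ)) : ℤ) : ℝ)) = -1 := by
    rcases h.sgn with h1 | h1 <;> rcases hk with h2 | h2 <;> rw [h1, h2] <;> norm_num
  refine ⟨by positivity, hκ, fun u hu => ?_⟩
  set κ : ℝ := -(ε * ((kr D (-(M : ℤ)) : ℤ) : ℝ)) with hκd
  have hκ2 : κ * κ = 1 := by rcases hκ with h1 | h1 <;> rw [h1] <;> norm_num
  have e : ∀ t : ℝ, THr (fun n => b n * kr D n) t = 4 * fDr b (kr D) (t / 2) := by
    intro t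
    unfold THr fDr
    congr 1
    refine tsum_congr fun n => ?_
    congr 2
    ring
  have h1 := fe_RCr h.qe h.al hM hc hQm (half_pos hu)
  rw [hm2] at h1
  rw [e, e]
  have e2 : 1 / ((M : ℝ) * (D : ℝ) ^ 2 / 4 * u) / 2 = 1 / (M * (D : ℝ) ^ 2 * (u / 2)) := by
    field_simp
    norm_num
  rw [e2, h1]
  rw [← hκd]
  have key : ∀ K F v k : ℝ, 0 < K → 0 < v → k * k = 1 →
      4 * F = k / (K / 4 * v ^ 2) * (4 * (k * K * (v / 2) ^ 2 * F)) := by
    intro K F v k hK hv hk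
    have e3 : k / (K / 4 * v ^ 2) * (4 * (k * K * (v / 2) ^ 2 * F)) = (k * k) * (4 * F) := by
      field_simp
      ring
    rw [e3, hk, one_mul]
  exact key _ _ _ _ (by positivity) hu hκ2

end P004N.H880
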