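import Vale.Agent.P004N.H449.Bd

/-!
# P004N: Mathlib's cusp forms of weight two on `Γ₀(N)` and the structure `S2`
-/

open UpperHalfPlane CongruenceSubgroup Matrix.SpecialLinearGroup
open scoped MatrixGroups ModularForm Manifold Real

namespace P004N.H880

/-- Mathlib's cusp forms of weight two on `Γ₀(N)` -/
abbrev CF (N : ℕ) := CuspForm ((Gamma0 N).map (mapGL ℝ)) 2

theorem s2_of_cusp {N : ℕ} (hN : 0 < N) (F : CF N) : S2 N (F : ℍ → ℂ) := by
  have : NeZero N := ⟨hN.ne'⟩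
  refine ⟨F.holo', fun γ hγ => ?_, fun γ => ?_⟩
  · exact F.slash_action_eq' (mapGL ℝ γ) (Subgroup.mem_map_of_mem _ hγ)
  · have hc : IsCusp (mapGL ℝ γ • OnePoint.infty : OnePoint ℝ) ((Gamma0 N).map (mapGL ℝ)) := by
      rw [Subgroup.IsArithmetic.isCusp_iff_isCusp_SL2Z, isCusp_SL2Z_iff']
      exact ⟨γ, rfl⟩
    have h := F.zero_at_cusps' hc
    rw [OnePoint.isZeroAt_iff rfl] at h
    exact h

theorem cusp_of_s2 {N : ℕ} {f : ℍ → ℂ} (hN : 0 < N) (h : S2 N f) : ∃ F : CF N, (F : ℍ → ℂ) = f :=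
  have : NeZero N := ⟨hN.ne'⟩
  ⟨H449.toCF h, rfl⟩

end P004N.H880
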