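import Vale.Agent.P004N.H880.Tw

/-!
# P004N, module T2: functional equations of the quadratic twists, final form
-/

open UpperHalfPlane hiding I
open CongruenceSubgroup
open scoped MatrixGroups ModularForm Manifold Real

namespace P004N.H880

open Vale.Agent.P004H.H871 (RC fD Fd kr kr_rc kr_mul kr_zero kr_one kr_pm)

variable {N Q g : ℕ} {f : ℍ → ℂ} {a : ℕ → ℤ} {ε : ℝ}

/-- **functional equation** of the twist by `χ_D` -/
theorem fe_kr (hqe : QE f (fun n => (a n : ℂ))) (hAL : ALw N Q f ε) (hN : N = Q * g) (hQ : 0 < Q)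
    {D : ℤ} (hD : Fd D) (hQD : IsCoprime (Q : ℤ) D) (hg : (g : ℤ) ∣ D) {y : ℝ} (hy : 0 < y) :
    ∑' n : ℕ, ((a n * kr D n : ℤ) : ℝ) * Real.exp (-2 * π * n * (1 / (Q * (D : ℝ) ^ 2 * y))) =
      -(ε * kr D (-Q)) * (Q * (D : ℝ) ^ 2) * y ^ 2 *
        ∑' n : ℕ, ((a n * kr D n : ℤ) : ℝ) * Real.exp (-2 * π * n * y) := by
  have hm : NeZero D.natAbs := ⟨Int.natAbs_ne_zero.2 hD.ne⟩
  have hc := kr_rc hD
  have hm2 : ((D.natAbs : ℕ) : ℝ) ^ 2 = (D : ℝ) ^ 2 := by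
    rw [Nat.cast_natAbs, Int.cast_abs, sq_abs]
  have hQm : D.natAbs.Coprime Q := by
    have h := Int.isCoprime_iff_gcd_eq_one.1 hQD
    rw [Int.gcd_comm] at h
    exact h
  have h1 := fe_RC hqe hAL hN hQ hc hQm (Int.natCast_dvd.1 hg) hy
  rw [hm2] at h1
  exact h1

/-- the part of the level prime to `D` -/
def lev (N : ℕ) (D : ℤ) : ℕ := N / Nat.gcd N D.natAbs

/-- **module T2**: the twists of a newform by all fundamental discriminants `D` such that every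
prime dividing both `N` and `D` divides `N` exactly once -/
theorem fe_newform (hal : StAL) (h : RN N f a) {D : ℤ} (hD : Fd D)
    (hND : ∀ p : ℕ, p.Prime → p ∣ N → (p : ℤ) ∣ D → ¬ p ^ 2 ∣ N) :
    IsCoprime ((lev N D : ℕ) : ℤ) D ∧ 0 < lev N D ∧ lev N D ∣ N ∧
    ∃ ε : ℝ, (ε = 1 ∨ ε = -1) ∧ ALw N (lev N D) f ε ∧ ∀ y : ℝ, 0 < y →
      ∑' n : ℕ, ((a n * kr D n : ℤ) : ℝ) *
          Real.exp (-2 * π * n * (1 / (lev N D * (D : ℝ) ^ 2 * y))) =
        -(ε * kr D (-(lev N D : ℕ))) * (lev N D * (D : ℝ) ^ 2) * y ^ 2 *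
          ∑' n : ℕ, ((a n * kr D n : ℤ) : ℝ) * Real.exp (-2 * π * n * y) := by
  have hpos := h.pos
  set G := Nat.gcd N D.natAbs with hG
  have hG0 : 0 < G := Nat.gcd_pos_of_pos_left _ hpos
  have hGN : G ∣ N := Nat.gcd_dvd_left _ _
  have hGD : G ∣ D.natAbs := Nat.gcd_dvd_right _ _
  have hN : lev N D * G = N := Nat.div_mul_cancel hGN
  have hQ0 : 0 < lev N D := by
    apply Nat.pos_of_ne_zero
    intro h0
    rw [h0, zero_mul] at hN
    omega
  have hcop : (lev N D).Coprime D.natAbs := by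
    apply Nat.Coprime.symm
    apply Nat.Coprime.symm
    by_contra hc
    obtain ⟨p, hp, h1, h2⟩ := Nat.Prime.not_coprime_iff_dvd.1 hc
    have h3 : p ∣ N := h1.trans (Dvd.intro _ hN)
    have h4 : p ∣ G := Nat.dvd_gcd h3 h2
    apply hND p hp h3 (Int.natCast_dvd.2 h2)
    rw [← hN, sq]
    exact mul_dvd_mul h1 h4
  have hcopG : (lev N D).Coprime G := Nat.Coprime.coprime_dvd_right hGD hcop
  have hcopD : IsCoprime ((lev N D : ℕ) : ℤ) D := by
    rw [Int.isCoprime_iff_gcd_eq_one]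
    exact hcop
  obtain ⟨ε, hε, hA⟩ := hal N f a h (lev N D) G hN hcopG
  refine ⟨hcopD, hQ0, Dvd.intro _ hN, ε, hε, hA, fun y hy => ?_⟩
  exact fe_kr h.qe hA hN.symm hQ0 hD hcopD (Int.natCast_dvd.2 hGD) hy

end P004N.H880
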