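import Vale.Agent.P004N.Defs
import Vale.Agent.P004H.H871.Twist

/-!
# P004N, module T2: the functional equations of the quadratic twists of a form with an
Atkin-Lehner involution
-/

open UpperHalfPlane hiding I
open CongruenceSubgroup
open scoped MatrixGroups ModularForm Manifold Real

namespace P004N.H880

open Complex Finset
open Vale.Agent.P004H.H871 (RC TS TS_gen fD Fd kr kr_rc kr_mul kr_zero kr_one im_add_div ne_zero_of_im
  sum_units)

/-- the function `f` on the complex plane -/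
noncomputable def ext (f : ℍ → ℂ) (z : ℂ) : ℂ := if h : 0 < z.im then f ⟨z, h⟩ else 0

lemma ext_of {f : ℍ → ℂ} {z : ℂ} (h : 0 < z.im) : ext f z = f ⟨z, h⟩ := dif_pos h

section key

variable {N Q g m : ℕ} {f : ℍ → ℂ} {a : ℕ → ℤ} {ε : ℝ}

lemma im_W {m Q : ℕ} (hm : 0 < m) (hQ : 0 < Q) {z : ℂ} (hz : 0 < z.im) (U : ℤ) :
    0 < (-1 / ((Q : ℂ) * (m : ℂ) ^ 2 * z) + U / m).im := by
  apply im_add_div
  have h1 : -1 / ((Q : ℂ) * (m : ℂ) ^ 2 * z) = ((1 / (Q * (m : ℝ) ^ 2) : ℝ) : ℂ) * (-z⁻¹) := by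
    push_cast
    have := ne_zero_of_im hz
    field_simp
  rw [h1, Complex.im_ofReal_mul, Complex.neg_im, Complex.inv_im]
  have h2 : 0 < Complex.normSq z := Complex.normSq_pos.2 (ne_zero_of_im hz)
  have h3 : 0 < z.im / Complex.normSq z := div_pos hz h2
  have h4 : -(-z.im / Complex.normSq z) = z.im / Complex.normSq z := by ring
  rw [h4]
  positivity

/-- the matrix identity
`(1, U/m; 0, 1) (0, -1; Q m², 0) (1, -V/m; 0, 1) = m (Q U, -t; Q m, -Q V)` -/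
lemma key (hAL : ALw N Q f ε) (hN : N = Q * g) (hQ : 0 < Q) (hm : 0 < m) (hg : g ∣ m) (U V t : ℤ)
    (ht : -(-(Q : ℤ)) * U * V + 1 = m * t) {z : ℂ} (hz : 0 < z.im) :
    ext f (-1 / ((Q : ℂ) * (m : ℂ) ^ 2 * z) + U / m) =
      (ε * (Q * (m : ℂ) ^ 2 * z ^ 2)) * ext f (z + V / m) := by
  have hx := im_add_div hz V m
  rw [ext_of hx, ext_of (im_W hm hQ hz U)]
  obtain ⟨k, rfl⟩ := hg
  have hg0 : 0 < g := Nat.pos_of_mul_pos_right hm
  have hz0 : z ≠ 0 := ne_zero_of_im hz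
  have hm0 : (((g * k : ℕ)) : ℂ) ≠ 0 := by exact_mod_cast hm.ne'
  have hQ0 : (Q : ℂ) ≠ 0 := by exact_mod_cast hQ.ne'
  have htc : (Q : ℂ) * U * V + 1 = ((g * k : ℕ) : ℂ) * t := by
    have h := ht
    rw [neg_neg] at h
    exact_mod_cast h
  have hden : ((N : ℂ) * ((k : ℤ) : ℂ) * (z + V / ((g * k : ℕ) : ℂ)) + Q * ((-V : ℤ) : ℂ)) =
      Q * ((g * k : ℕ) : ℂ) * z := by
    rw [hN]
    have hk0 : (k : ℂ) ≠ 0 := by
      have := Nat.pos_of_mul_pos_left hm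
      exact_mod_cast this.ne'
    have hg0' : (g : ℂ) ≠ 0 := by exact_mod_cast hg0.ne'
    push_cast
    field_simp
    ring
  have h := hAL U (-t) k (-V) (by
      rw [hN]
      have h := ht
      rw [neg_neg] at h
      push_cast at h ⊢
      linear_combination -(Q : ℤ) * h) ⟨z + V / ((g * k : ℕ) : ℂ), hx⟩
    ⟨-1 / ((Q : ℂ) * ((g * k : ℕ) : ℂ) ^ 2 * z) + U / ((g * k : ℕ) : ℂ), im_W hm hQ hz U⟩ (by
      show -1 / ((Q : ℂ) * ((g * k : ℕ) : ℂ) ^ 2 * z) + U / ((g * k : ℕ) : ℂ) =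
        (Q * (U : ℂ) * (z + V / ((g * k : ℕ) : ℂ)) + ((-t : ℤ) : ℂ)) /
          ((N : ℂ) * ((k : ℤ) : ℂ) * (z + V / ((g * k : ℕ) : ℂ)) + Q * ((-V : ℤ) : ℂ))
      rw [hden]
      field_simp
      push_cast at htc ⊢
      linear_combination -htc)
  rw [h]
  show (ε : ℂ) * ((((N : ℂ) * ((k : ℤ) : ℂ) * (z + V / ((g * k : ℕ) : ℂ)) +
    Q * ((-V : ℤ) : ℂ)) ^ 2) / Q) * _ = _
  rw [hden]
  field_simp

end key

section sums

variable {N Q g m : ℕ} [NeZero m] {f : ℍ → ℂ} {a : ℕ → ℤ} {ε : ℝ} {c : ℤ → ℤ}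

lemma ext_hasSum (hqe : QE f (fun n => (a n : ℂ))) {z : ℂ} (hz : 0 < z.im) :
    HasSum (fun n : ℕ => (a n : ℂ) * cexp (2 * Real.pi * I * (n * z))) (ext f z) := by
  rw [ext_of hz]
  refine (hqe ⟨z, hz⟩).congr_fun fun n => ?_
  congr 2
  show 2 * (π : ℂ) * I * (n * z) = 2 * π * I * n * z
  ring

/-- the twisted series in terms of the form -/
lemma twist_hasSum (hqe : QE f (fun n => (a n : ℂ))) {G : ℂ} (hg : G ≠ 0)
    (hg2 : ∀ k : ℤ, ∑ u : ZMod m, (c u.val : ℂ) * ZMod.stdAddChar (u * (k : ZMod m)) = c k * G)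
    {z : ℂ} (hz : 0 < z.im) :
    HasSum (fun n : ℕ => (a n : ℂ) * c n * cexp (2 * Real.pi * I * (n * z)))
      (G⁻¹ * TS m c (ext f) z) := by
  have hm0 : (m : ℂ) ≠ 0 := by exact_mod_cast NeZero.ne m
  have h1 : ∀ u : ZMod m, HasSum (fun n : ℕ => (c u.val : ℂ) *
      ((a n : ℂ) * cexp (2 * Real.pi * I * (n * (z + ((u.val : ℤ) : ℂ) / m)))))
      ((c u.val : ℂ) * ext f (z + ((u.val : ℤ) : ℂ) / m)) := fun u =>
    (ext_hasSum hqe (im_add_div hz _ m)).mul_left _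
  have h2 := (hasSum_sum (fun u (_ : u ∈ (Finset.univ : Finset (ZMod m))) => h1 u)).mul_left G⁻¹
  refine h2.congr_fun fun n => ?_
  have h3 : ∀ u : ZMod m, (ZMod.stdAddChar (u * ((n : ℤ) : ZMod m)) : ℂ) =
      cexp (2 * Real.pi * I * (n * (((u.val : ℤ) : ℂ) / m))) := by
    intro u
    rw [P004.stdAddChar_mul_int]
    congr 1
    push_cast
    ring
  have h4 : ∀ u : ZMod m, (c u.val : ℂ) *
      ((a n : ℂ) * cexp (2 * Real.pi * I * (n * (z + ((u.val : ℤ) : ℂ) / m)))) =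
      ((a n : ℂ) * cexp (2 * Real.pi * I * (n * z))) *
        ((c u.val : ℂ) * ZMod.stdAddChar (u * ((n : ℤ) : ZMod m))) := by
    intro u
    rw [h3 u, mul_add, mul_add, Complex.exp_add]
    ring
  simp_rw [h4, ← Finset.mul_sum]
  rw [hg2]
  field_simp

lemma TS_fe (hAL : ALw N Q f ε) (hN : N = Q * g) (hQ : 0 < Q) (hc : RC m c) (hQm : m.Coprime Q)
    (hg : g ∣ m) {z : ℂ} (hz : 0 < z.im) :
    TS m c (ext f) (-1 / ((Q : ℂ) * (m : ℂ) ^ 2 * z)) =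
      (c (-Q) : ℂ) * (ε * (Q * (m : ℂ) ^ 2 * z ^ 2)) * TS m c (ext f) z := by
  have hm : 0 < m := Nat.pos_of_ne_zero (NeZero.ne m)
  refine TS_gen hc ?_ fun U V t ht => key hAL hN hQ hm hg U V t ht hz
  rw [ZMod.coe_int_isUnit_iff_isCoprime]
  have : IsCoprime (m : ℤ) (Q : ℤ) := Nat.isCoprime_iff_coprime.2 hQm
  exact this.neg_right

lemma fD_eq (hqe : QE f (fun n => (a n : ℂ))) {G : ℂ} (hg : G ≠ 0)
    (hg2 : ∀ k : ℤ, ∑ u : ZMod m, (c u.val : ℂ) * ZMod.stdAddChar (u * (k : ZMod m)) = c k * G)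
    {y : ℝ} (hy : 0 < y) : ((fD a c y : ℝ) : ℂ) = G⁻¹ * TS m c (ext f) (y * I) := by
  have hz : 0 < ((y : ℂ) * I).im := by simpa using hy
  have h1 := twist_hasSum hqe hg hg2 hz
  rw [← h1.tsum_eq]
  unfold fD
  rw [Complex.ofReal_tsum]
  refine tsum_congr fun n => ?_
  push_cast
  congr 2
  have hI := Complex.I_mul_I
  linear_combination (-2 * Real.pi * n * y : ℂ) * hI

/-- **functional equation** of the twist by a real character `c` modulo `m` -/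
theorem fe_RC (hqe : QE f (fun n => (a n : ℂ))) (hAL : ALw N Q f ε) (hN : N = Q * g) (hQ : 0 < Q)
    (hc : RC m c) (hQm : m.Coprime Q) (hg : g ∣ m) {y : ℝ} (hy : 0 < y) :
    fD a c (1 / (Q * (m : ℝ) ^ 2 * y)) =
      -(ε * c (-Q)) * (Q * (m : ℝ) ^ 2) * y ^ 2 * fD a c y := by
  obtain ⟨G, hG, hG2⟩ := hc.gauss
  have hm : (0 : ℝ) < m := by exact_mod_cast Nat.pos_of_ne_zero (NeZero.ne m)
  have hm0 : (m : ℂ) ≠ 0 := by exact_mod_cast NeZero.ne m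
  have hy0 : (y : ℂ) ≠ 0 := by exact_mod_cast hy.ne'
  have hQr : (0 : ℝ) < Q := by exact_mod_cast hQ
  have hQ0 : (Q : ℂ) ≠ 0 := by exact_mod_cast hQ.ne'
  have hz : 0 < ((y : ℂ) * I).im := by simpa using hy
  have h1 := TS_fe hAL hN hQ hc hQm hg hz
  have e1 : -1 / ((Q : ℂ) * (m : ℂ) ^ 2 * (y * I)) =
      ((1 / (Q * (m : ℝ) ^ 2 * y) : ℝ) : ℂ) * I := by
    push_cast
    have hI := Complex.I_mul_I
    field_simp
    linear_combination -hI
  rw [e1] at h1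
  apply Complex.ofReal_injective
  rw [fD_eq hqe hG hG2 (by positivity), h1]
  push_cast
  rw [fD_eq hqe hG hG2 hy, mul_pow, Complex.I_sq]
  ring

end sums

end P004N.H880
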